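import Vale.Agent.P352X.R.ELL.Pl

/-!
# P352X, row ELL: the coordinates `(p_a, p^2, q)` on the cone
-/

set_option linter.all false

noncomputable section

open MeasureTheory Filter Topology Complex Set
open scoped SchwartzMap ComplexConjugate ENNReal NNReal

namespace Vale.Agent.P352X.El

open Vale.Agent.P352.GF Vale.Agent.P352.BW Vale.Agent.P352.H496 Vale.Agent.P352.H755

/-- the coordinates `((p_a, p^2), q)` -/
def co (P : V) : (ℝ × ℝ) × R2 := ((be P, mu P), tx P)

lemma meas_co : Measurable co := by
  unfold co
  fun_prop

lemma mp_pm : ∃ c : ℝ≥0, MeasurePreserving pmE volume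
    (c • ((volume : Measure ℝ).prod (volume : Measure R2)).prod (volume : Measure ℝ)) := by
  haveI : (((volume : Measure ℝ).prod (volume : Measure R2)).prod
    (volume : Measure ℝ)).IsAddHaarMeasure := Measure.prod.instIsAddHaarMeasure _ _
  exact ⟨_, pmE.continuous.measurable, Measure.isAddLeftInvariant_eq_smul _ _⟩

/-- in these coordinates the volume of the cone is a product -/
theorem coord : ∃ ν : Measure (ℝ × ℝ), SFinite ν ∧
    MeasurePreserving co (volume.restrict Fc) (ν.prod volume) := by
  obtain ⟨c, h1⟩ := mp_pm
  have h2 : MeasurePreserving (fun y : P3 × ℝ => (id y.1, y.2 - d2 y.1.2 y.1.2 / (2 * y.1.1)))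
      (((volume : Measure ℝ).prod (volume : Measure R2)).prod (volume : Measure ℝ))
      (((volume : Measure ℝ).prod (volume : Measure R2)).prod (volume : Measure ℝ)) :=
    (MeasurePreserving.id _).skew_product (g := fun (k : P3) a => a - d2 k.2 k.2 / (2 * k.1))
      (by unfold Function.uncurry; fun_prop)
      (Eventually.of_forall fun k => (measurePreserving_sub_right volume _).map_eq)
  have h3 := ((measurePreserving_prodAssoc (volume : Measure ℝ) (volume : Measure ℝ)
    (volume : Measure R2)).symm _).comp (((MeasurePreserving.id (volume : Measure ℝ)).prod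
    (Measure.measurePreserving_swap (μ := (volume : Measure R2)) (ν := (volume : Measure ℝ)))).comp
    (measurePreserving_prodAssoc (volume : Measure ℝ) (volume : Measure R2) (volume : Measure ℝ)))
  have h4 := (((h3.comp h2).smul_measure c).comp h1).restrict_preimage
    (s := (Ioi 0 ×ˢ Ioi 0) ×ˢ univ) (by measurability)
  rw [← Measure.prod_smul_left, ← Measure.restrict_prod_eq_prod_univ] at h4
  have h5 : Measurable fun y : ℝ × ℝ => (y.1, 2 * y.1 * y.2) := by fun_prop
  have h6 := ((h5.measurePreserving _).prod (MeasurePreserving.id (volume : Measure R2))).comp h4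
  have h7 : ∀ P : V, 0 < be P → 2 * be P * (al P - d2 (tx P) (tx P) / (2 * be P)) = mu P :=
    fun P hP => by
      rw [mu_eq]
      field_simp
  have h8 := h6.congr meas_co ((ae_restrict_iff' ((h3.comp h2).measurable.comp h1.measurable
    (by measurability))).2 (Eventually.of_forall fun P hP =>
      Prod.ext (Prod.ext rfl (h7 P hP.1.1)) rfl))
  refine ⟨_, ?_, ⟨meas_co, Eq.trans ?_ h8.map_eq⟩⟩
  · infer_instance
  · congr 2
    ext P
    rw [mem_Fc]
    change _ ↔ (0 < be P ∧ 0 < al P - d2 (tx P) (tx P) / (2 * be P)) ∧ True
    rw [and_true]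
    refine and_congr_right fun hP => ?_
    rw [← h7 P hP]
    exact mul_pos_iff_of_pos_left (by positivity)

end Vale.Agent.P352X.El

end
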