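import Vale.Agent.P352X.R.ELL.Fam
import Vale.Agent.P352X.R.ELL.Co

/-!
# P352X, row ELL: the action of `M^2 / P`
-/

set_option linter.all false

noncomputable section

open MeasureTheory Filter Topology Complex Set
open scoped SchwartzMap ComplexConjugate ENNReal

namespace Vale.Agent.P352X.El

open Vale.Agent.P352.GF Vale.Agent.P352.BW Vale.Agent.P352.H496 Vale.Agent.P352.H755
open SN

/-- the family whose transverse transform is `ft3 g φ` -/
def uu (g : P3 → ℂ) (φ : ℝ → ℝ → ℂ) (z : (ℝ × ℝ) × R2) : ℂ := φ z.1.1 z.1.2 * f1 g (z.1.1, z.2)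

lemma F2_uu (g : 𝓢(P3, ℂ)) (φ : ℝ → ℝ → ℂ) (P : V) :
    F2 (uu g φ) (co P) = ft3 g (pm P) * φ (be P) (mu P) := by
  simp only [F2, uu, f2_smul, f2_f1, co]
  exact mul_comm _ _

lemma nice_uu {g : 𝓢(P3, ℂ)} {φ : ℝ → ℝ → ℂ} (hφ : Measurable (Function.uncurry φ))
    (hg : ∀ p, Integrable fun q => ft3 g (p, q)) : Nice (uu g φ) where
  meas := (hφ.comp measurable_fst).mul ((f1_cont g).measurable.comp (by fun_prop))
  cont a := ((f1_cont g).comp (Continuous.prodMk_right a.1)).const_mul (φ a.1 a.2)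
  int a := (f1_int g a.1).const_mul (φ a.1 a.2)
  int' a := ((hg a.1).const_mul (φ a.1 a.2)).congr (Eventually.of_forall fun q => by
    simp only [uu, f2_smul, f2_f1])

lemma co_gap (w : R2) (P : V) : co (gap (-w) P) = ((co P).1, (co P).2 - be P • w) := by
  simp only [co, be_gap, tx_gap, mu, md_gap, smul_neg, sub_eq_add_neg]

/-- the joint spectrum of `P` and `M` -/
def kk (z : (ℝ × ℝ) × R2) : P3 := (z.1.1, z.1.1 • z.2)

lemma meas_kk : Measurable kk := by
  unfold kk
  fun_prop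

theorem s0_of {H : Type*} [NormedAddCommGroup H] [InnerProductSpace ℂ H] [CompleteSpace H]
    {U : P3 → H → H} (C : BC pr3 U) (hp : IsPair pr3) {ell : (V → ℂ) → H} {c0 : ℝ}
    (inn : ∀ ψ ψ', MemLp ψ 2 (volume.restrict Fc) → MemLp ψ' 2 (volume.restrict Fc) →
      inner ℂ (ell ψ) (ell ψ') = c0 * ∫ p in Fc, conj (ψ p) * ψ' p)
    (hU : ∀ (y : P3) ψ, MemLp ψ 2 (volume.restrict Fc) →
      U y (ell ψ) = ell fun p => cexp (I * (be p * y.1 : ℝ)) * ψ (gap (-y.2) p))
    (hS : ∀ (g : 𝓢(P3, ℂ)) p, Integrable fun q => ft3 g (p, q))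
    (t : ℝ) (g g' : 𝓢(P3, ℂ)) (φ : ℝ → ℝ → ℂ) (hφ : Measurable (Function.uncurry φ))
    (hg : ∀ y : P3, g' y = g (y.1 - t * d2 y.2 y.2, y.2))
    (hm : MemLp (fun p => ft3 g (pm p) * φ (be p) (mu p)) 2 (volume.restrict Fc)) :
    MemLp (fun p => ft3 g' (pm p) * φ (be p) (mu p)) 2 (volume.restrict Fc) ∧
    C.Phi (fun k => cexp (I * (t * (d2 k.2 k.2 / k.1) : ℝ)))
      (ell fun p => ft3 g (pm p) * φ (be p) (mu p)) =
      ell fun p => ft3 g' (pm p) * φ (be p) (mu p) := by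
  obtain ⟨ν, _, hν⟩ := coord
  have a1 : ∀ {h}, Nice h → (MemLp (fun P => F2 h (co P)) 2 (volume.restrict Fc) ↔
      MemLp h 2 (ν.prod volume)) := fun {h} n => by
    rw [← n.memLp, ← hν.map_eq]
    exact (memLp_map_measure_iff n.measF.aestronglyMeasurable meas_co.aemeasurable).symm
  have a2 : ∀ {h h'}, Nice h → Nice h' → MemLp h 2 (ν.prod volume) → MemLp h' 2 (ν.prod volume) →
      inner ℂ (ell fun P => F2 h' (co P)) (ell fun P => F2 h (co P)) =
        (c0 * (2 * Real.pi) ^ 2 : ℝ) * ∫ z, conj (h' z) * h z ∂ν.prod volume :=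
    fun {h h'} n n' m m' => by
      have m1 := n.measF
      have m2 := n'.measF
      rw [inn _ _ ((a1 n').2 m') ((a1 n).2 m), ofReal_mul, mul_assoc, ← n.pl n' m m', ← hν.map_eq,
        integral_map meas_co.aemeasurable (Measurable.aestronglyMeasurable (by fun_prop))]
  have n := nice_uu hφ (hS g)
  have n' := nice_uu hφ (hS g')
  simp only [← F2_uu] at hm ⊢
  have m := (a1 n).1 hm
  have hf : Bd fun k : P3 => cexp (I * (t * (d2 k.2 k.2 / k.1) : ℝ)) := Bd.expI (by fun_prop)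
  have e : ∀ z, uu g' φ z = cexp (I * (t * (d2 (kk z).2 (kk z).2 / (kk z).1) : ℝ)) * uu g φ z :=
    fun z => by
      have : d2 (kk z).2 (kk z).2 / (kk z).1 = z.1.1 * d2 z.2 z.2 := by
        simp only [kk, d2_smul, d2_smul_l]
        rcases eq_or_ne z.1.1 0 with h | h
        · simp [h]
        · field_simp
      rw [uu, uu, f1_shift hg, this]
      ring
  have m' : MemLp (uu g' φ) 2 (ν.prod volume) := by
    rw [funext e]
    exact (hf.comp meas_kk).memLp_smul m
  refine ⟨(a1 n').2 m', ?_⟩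
  have a3 : ∀ {f : P3 → ℂ} (hf : Bd f), inner ℂ (m'.toLp _)
      (((mulOp (ν.prod volume) ℂ).map kk meas_kk).Phi f (m.toLp _)) =
        ∫ z, conj (uu g' φ z) * (f (kk z) * uu g φ z) ∂ν.prod volume := fun {f} hf => by
    rw [Calc.map_Phi, L2.inner_def]
    refine integral_congr_ae ?_
    filter_upwards [mulOp_coe (hf.comp meas_kk) (m.toLp _), m.coeFn_toLp, m'.coeFn_toLp]
      with z h1 h2 h3
    rw [h1, h2, h3, RCLike.inner_apply, mul_comm, smul_eq_mul]
  have a4 := mel hp C.toCalc ((mulOp (ν.prod volume) ℂ).map kk meas_kk)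
    (innerSL ℂ (ell fun P => F2 (uu g' φ) (co P)))
    (((c0 * (2 * Real.pi) ^ 2 : ℝ) : ℂ) • innerSL ℂ (m'.toLp _))
    (v := ell fun P => F2 (uu g φ) (co P)) (w := m.toLp _) (fun y => ?_) hf
  · rw [smul_apply, innerSL_apply_apply, innerSL_apply_apply, a3 hf, smul_eq_mul] at a4
    simp only [← e] at a4
    rw [← a2 n' n' m' m'] at a4
    have a5 := C.inner_Phi hf hf (ell fun P => F2 (uu g φ) (co P))
    simp only [conj_mul_self, norm_ph, one_pow, ofReal_one] at a5
    rw [← C.inner (Bd.const 1), C.one, one_apply_eq_self, a2 n n m m] at a5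
    have a6 : ∀ z, conj (uu g φ z) * uu g φ z = conj (uu g' φ z) * uu g' φ z := fun z => by
      rw [conj_mul_self, conj_mul_self, e, norm_mul, norm_ph, one_mul]
    simp only [a6] at a5
    rw [← a2 n' n' m' m'] at a5
    rw [← sub_eq_zero, ← inner_self_eq_zero (𝕜 := ℂ), inner_sub_sub_self, a4, a5,
      ← inner_conj_symm (C.Phi _ _), a4, inner_conj_symm]
    ring
  · have ny := n.mod (c := fun a => cexp (I * (a.1 * y.1 : ℝ))) (w := fun a => a.1 • y.2)
      (by fun_prop) (by fun_prop)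
    have ey : ∀ z : (ℝ × ℝ) × R2, cexp (I * (z.1.1 * y.1 : ℝ)) *
        (cexp (I * (d2 z.2 (z.1.1 • y.2) : ℝ)) * uu g φ z) = ch pr3 y (kk z) * uu g φ z := fun z => by
      rw [← mul_assoc, ← Complex.exp_add, ch, pr3]
      simp only [kk, d2_smul, d2_smul_l]
      push_cast
      ring_nf
    have my := (hp.bd y).comp meas_kk |>.memLp_smul m
    simp only [smul_eq_mul, ← ey] at my
    have a7 := a2 ny n' my m'
    simp only [F2_mod (uu g φ) (fun a => cexp (I * (a.1 * y.1 : ℝ))) fun a => a.1 • y.2] at a7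
    simp only [ey] at a7
    rw [smul_apply, innerSL_apply_apply, innerSL_apply_apply, a3 (hp.bd y), smul_eq_mul, C.Phi_ch,
      hU _ _ hm, ← a7]
    simp only [co_gap]
    rfl

end Vale.Agent.P352X.El

end
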