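import Vale.Agent.P352X.R.ELL.Ft
import Vale.Agent.P352X.R.ELL.S0
import Vale.Agent.P352X.R.Br

/-!
# P352X, row ELL: the potential as an operator on the square integrable functions on the cone
-/

set_option linter.all false

noncomputable section

open MeasureTheory Filter Topology Complex Set
open scoped SchwartzMap ComplexConjugate ENNReal NNReal

namespace Vale.Agent.P352X.El

open Vale.Agent.P352.GF Vale.Agent.P352.BW Vale.Agent.P352.H496 Vale.Agent.P352.H755
open Vale.Agent.P352.H246 (linv isLor_linv box In)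
open UniformSpace (Completion)
open SN

/-- square integrable functions on the cone -/
abbrev LF := Lp ℂ 2 ((volume : Measure V).restrict Fc)

lemma temp : ((volume : Measure V).restrict Fc).HasTemperateGrowth := by
  obtain ⟨n, hn⟩ := Measure.HasTemperateGrowth.exists_integrable (μ := (volume : Measure V))
  exact ⟨n, hn.restrict⟩

/-- the Fourier transform as a map to `LF` with dense range -/
theorem exists_F : ∃ F : Sch →L[ℂ] LF, DenseRange F ∧
    ∀ f, F f =ᵐ[volume.restrict Fc] ft (ev f) := by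
  haveI := temp
  obtain ⟨F, h1, h2⟩ := exists_ftS
  refine ⟨SchwartzMap.toLpCLM ℂ ℂ 2 (volume.restrict Fc) ∘L F, ?_, fun f => ?_⟩
  · have h3 := SchwartzMap.denseRange_toLpCLM (E := V) (F := ℂ) (p := 2) ENNReal.ofNat_ne_top
      (μ := volume.restrict Fc)
    exact h3.comp h1.denseRange (SchwartzMap.toLpCLM ℝ ℂ 2 (volume.restrict Fc)).continuous
  · exact ((F f).coeFn_toLp 2 _).trans (Eventually.of_forall (h2 f))

lemma mem_ft {f : Fn} (hf : IsTest f) : MemLp (ft f) 2 (volume.restrict Fc) := by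
  obtain ⟨F, -, h⟩ := exists_F
  obtain ⟨g, rfl⟩ := hf
  exact (Lp.memLp (F g)).ae_eq (h g)

/-- composition with a map that scales the measure -/
def cmpL {k : V → V} {κ : ℝ} (h : Sc k (volume.restrict Fc) (volume.restrict Fc) κ) :
    LF →L[ℂ] LF := LinearMap.mkContinuousOfExistsBound
  { toFun := fun u => (h.memLp.2 (Lp.memLp u)).toLp _
    map_add' := fun u v => by
      rw [← MemLp.toLp_add]
      exact MemLp.toLp_congr _ _ (h.ae_eq (Lp.coeFn_add u v))
    map_smul' := fun a u => by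
      rw [RingHom.id_apply, ← MemLp.toLp_const_smul]
      exact MemLp.toLp_congr _ _ (h.ae_eq (Lp.coeFn_smul a u)) }
  ⟨_, fun u => by
    simp only [LinearMap.coe_mk, AddHom.coe_mk]
    rw [Lp.norm_toLp, h.eLpNorm, ENNReal.toReal_mul, Lp.norm_def]⟩

lemma cmpL_coe {k : V → V} {κ : ℝ} (h : Sc k (volume.restrict Fc) (volume.restrict Fc) κ)
    (u : LF) : cmpL h u =ᵐ[volume.restrict Fc] fun p => u (k p) :=
  (h.memLp.2 (Lp.memLp u)).coeFn_toLp

variable {D : Type*} [NormedAddCommGroup D] [InnerProductSpace ℂ D] (c : Ctx D)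

lemma l_zero : c.l (fun _ => 0) = 0 := by
  simpa using c.hl.lin (fun _ => 0) (fun _ => 0) 1 ⟨0, rfl⟩ ⟨0, rfl⟩

/-- the potential on Schwartz space -/
def lc : Sch →L[ℂ] Completion D where
  toFun g := c.l (ev g)
  map_add' f g := by
    have := c.hl.lin (ev f) (ev g) 1 ⟨f, rfl⟩ ⟨g, rfl⟩
    simp only [one_mul, one_smul] at this
    exact this
  map_smul' a f := by
    have := c.hl.lin (fun _ => 0) (ev f) a ⟨0, rfl⟩ ⟨f, rfl⟩
    simp only [zero_add, l_zero] at this
    exact this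
  cont := c.hl.cont

variable {c}

lemma cov2 (lie : LIE) (g : GRP c) : c.Cov2 c.l (-1) (-1) where
  lin f f' a h h' := c.hl.lin f f' a h.1 h'.1
  bd K _ := by
    obtain ⟨m, C, -, h⟩ := lie.clm V ((normSeminorm ℂ _).comp (lc c).toLinearMap)
      (lc c).continuous.norm
    exact ⟨m, C, fun f _ => h f⟩
  tra a f h := by
    simpa only [P352.HM.sim_tr, one_pow, inv_one, one_smul, Ut] using
      g.pot 1 P352.GF.one a f one_pos isLor_one h.1
  rot w f h := by
    simpa only [(g.lga w).2, one_pow, inv_one, one_smul, Ga] using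
      g.pot 1 _ 0 f one_pos (g.lga w).1 h.1
  sca r s f hr hs h := by
    have := g.pot _ _ 0 f (Real.sqrt_pos.2 (mul_pos hr hs)) (g.lsc r s hr hs).1 h.1
    simp only [(g.lsc r s hr hs).2, Real.sq_sqrt (mul_pos hr hs).le] at this
    rw [Real.rpow_neg_one, Real.rpow_neg_one, ← mul_inv, coe_smul]
    exact this
  perp f h := g.perpl f h.1

lemma inner_F {F : Sch →L[ℂ] LF} (h : ∀ f, F f =ᵐ[volume.restrict Fc] ft (ev f)) (f f' : Sch) :
    inner ℂ (F f) (F f') = ∫ p in Fc, conj (ft (ev f) p) * ft (ev f') p := by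
  rw [L2.inner_def]
  refine integral_congr_ae ?_
  filter_upwards [h f, h f'] with p h1 h2
  rw [h1, h2, RCLike.inner_apply, mul_comm]

/-- the two point function of the potential -/
theorem exists_iota (lie : LIE) (g : GRP c) (z : ZC c) : ∃ (ι : LF →L[ℂ] Completion D) (c0 : ℝ)
    (F : Sch →L[ℂ] LF), 0 ≤ c0 ∧ DenseRange F ∧ (∀ f, F f =ᵐ[volume.restrict Fc] ft (ev f)) ∧
    (∀ f, ι (F f) = c.l (ev f)) ∧ ∀ u v, inner ℂ (ι u) (ι v) = c0 * inner ℂ u v := by
  obtain ⟨F, hd, hF⟩ := exists_F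
  obtain ⟨κ, hκ⟩ := z.cls _ _ (cov2 lie g) (cov2 lie g)
  have h1 : ∀ f f', inner ℂ (lc c f) (lc c f') = κ * inner ℂ (F f) (F f') := fun f f' => by
    obtain ⟨-, u, -, -, hu, -, lu⟩ := ST.exists_cut f
    obtain ⟨-, u', -, -, hu', -, lu'⟩ := ST.exists_cut f'
    refine tendsto_nhds_unique ((((lc c).continuous.tendsto _).comp lu).inner (𝕜 := ℂ)
      (((lc c).continuous.tendsto _).comp lu')) (Tendsto.congr (fun n => ?_)
      ((((F.continuous.tendsto _).comp lu).inner (𝕜 := ℂ)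
        ((F.continuous.tendsto _).comp lu')).const_mul κ))
    rw [Function.comp_apply, Function.comp_apply, inner_F hF]
    exact (hκ _ _ ⟨⟨u n, rfl⟩, hu n, subset_univ _⟩ ⟨⟨u' n, rfl⟩, hu' n, subset_univ _⟩).symm
  obtain ⟨c0, h0, h2⟩ : ∃ c0 : ℝ, 0 ≤ c0 ∧
      ∀ f f', inner ℂ (lc c f) (lc c f') = c0 * inner ℂ (F f) (F f') := by
    by_cases h : ∃ f, F f ≠ 0
    · obtain ⟨f, hf⟩ := h
      refine ⟨‖lc c f‖ ^ 2 / ‖F f‖ ^ 2, by positivity, ?_⟩
      have := h1 f f
      rw [inner_self_eq_norm_sq_to_K, inner_self_eq_norm_sq_to_K] at this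
      have e : κ = (‖lc c f‖ ^ 2 / ‖F f‖ ^ 2 : ℝ) := by
        have : (‖F f‖ : ℂ) ≠ 0 := by simpa using hf
        push_cast
        rw [eq_div_iff (by positivity)]
        exact (by assumption : _ = κ * _).symm
      exact e ▸ h1
    · push Not at h
      exact ⟨0, le_rfl, fun f f' => by simp [h1, h]⟩
  have h3 : ∃ C, ∀ f, ‖(lc c).toLinearMap f‖ ≤ C * ‖F.toLinearMap f‖ := by
    refine ⟨Real.sqrt c0, fun f => (pow_le_pow_iff_left₀ (norm_nonneg _) (by positivity)
      two_ne_zero).1 (le_of_eq ?_)⟩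
    have := h2 f f
    rw [inner_self_eq_norm_sq_to_K, inner_self_eq_norm_sq_to_K] at this
    rw [mul_pow, Real.sq_sqrt h0]
    refine ofReal_injective ?_
    push_cast
    exact this
  have h4 := LinearMap.extendOfNorm_eq (f := (lc c).toLinearMap) (e := F.toLinearMap) hd h3
  refine ⟨(lc c).toLinearMap.extendOfNorm F.toLinearMap, c0, F, h0, hd, hF, h4, fun u v => ?_⟩
  refine hd.induction_on₂ (isClosed_eq (by fun_prop) (by fun_prop)) (fun f f' => ?_) u v
  exact (congrArg₂ (inner ℂ) (h4 f) (h4 f')).trans (h2 f f')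

lemma sim_inv {s : ℝ} {L : Ix → V} (hs : 0 < s) (hL : IsLor L) (a x : V) :
    sim s⁻¹ (linv L) (-sim s⁻¹ (linv L) 0 a) (sim s L a x) = x := by
  have h := (conf_sim (inv_pos.2 hs) (isLor_linv hL)).lin
  rw [sim_zero, sim_zero (s := s) a, h.map_add, add_neg_cancel_right, sim_smul (s := s),
    h.map_smul, sim_smul, linv_sim _ hL, smul_smul, mul_inv_cancel₀ hs.ne', one_smul]

lemma test_sim' {s : ℝ} {L : Ix → V} (hs : 0 < s) (hL : IsLor L) (a : V) (f : Sch) :
    IsTest fun x => ev f (sim s L a x) :=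
  ⟨SchwartzMap.compCLMOfContinuousLinearEquiv ℂ (conf_sim hs hL).cle (ST.tsl (-a) f),
    funext fun x => by
      rw [sim_zero, ← sub_neg_eq_add]
      rfl⟩

end Vale.Agent.P352X.El

end
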