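import Vale.Agent.P352X.R.ELL.Pl
import Vale.Agent.P352X.SN.Mul

/-!
# P352X, row ELL: the transverse Fourier transform of families; matrix elements of a calculus
-/

set_option linter.all false

noncomputable section

open MeasureTheory Filter Topology Complex Set
open scoped SchwartzMap ComplexConjugate ENNReal

namespace Vale.Agent.P352X.El

open SN

lemma sq_int {h : R2 → ℂ} (h1 : Integrable h) {C : ℝ} (hC : ∀ x, ‖h x‖ ≤ C) :
    Integrable fun x => ‖h x‖ ^ 2 := by
  refine (h1.norm.const_mul C).mono' (h1.1.norm.pow 2) (Eventually.of_forall fun x => ?_)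
  rw [Real.norm_of_nonneg (by positivity), sq]
  exact mul_le_mul_of_nonneg_right (hC x) (norm_nonneg _)

lemma inv_bd {h : R2 → ℂ} (hc : Continuous h) (h1 : Integrable h) (h2 : Integrable (f2 h))
    (x : R2) : ‖h x‖ ≤ (∫ q, ‖f2 h q‖) / (2 * Real.pi) ^ 2 := by
  have a := norm_integral_le_integral_norm (μ := volume)
    fun q => cexp (I * (d2 x q : ℝ)) * f2 h q
  rw [f2_inv hc h1 h2] at a
  simp only [norm_mul, norm_ph, one_mul, norm_real] at a
  rw [le_div_iff₀ (by positivity), mul_comm]
  exact (mul_le_mul_of_nonneg_right (le_abs_self _) (norm_nonneg _)).trans a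

lemma f2_sq {h : R2 → ℂ} (hc : Continuous h) (h1 : Integrable h) (h2 : Integrable (f2 h)) :
    ∫ q, ‖f2 h q‖ ^ 2 = (2 * Real.pi) ^ 2 * ∫ x, ‖h x‖ ^ 2 := by
  have a := f2_pl hc h1 h2 h1
  simp only [conj_mul_self, integral_complex_ofReal] at a
  exact_mod_cast a

variable {A : Type*} [MeasurableSpace A] {ν : Measure A} [SFinite ν] {h h' : A × R2 → ℂ}

/-- the transverse transform of a family -/
def F2 (h : A × R2 → ℂ) (z : A × R2) : ℂ := f2 (fun x => h (z.1, x)) z.2

/-- families for which the inversion formula holds -/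
structure Nice (h : A × R2 → ℂ) : Prop where
  meas : Measurable h
  cont : ∀ a, Continuous fun x => h (a, x)
  int : ∀ a, Integrable fun x => h (a, x)
  int' : ∀ a, Integrable (f2 fun x => h (a, x))

lemma Nice.measF (n : Nice h) : Measurable (F2 h) := by
  have hm := n.meas
  refine (StronglyMeasurable.integral_prod_right' (ν := volume)
    (f := fun y : (A × R2) × R2 => h (y.1.1, y.2) * cexp (I * (-d2 y.2 y.1.2 : ℝ)))
    (Measurable.stronglyMeasurable ?_)).measurable
  fun_prop

lemma Nice.memLp (n : Nice h) : MemLp (F2 h) 2 (ν.prod volume) ↔ MemLp h 2 (ν.prod volume) := by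
  have m1 := n.measF
  have m2 := n.meas
  rw [memLp_two_iff_integrable_sq_norm m1.aestronglyMeasurable,
    memLp_two_iff_integrable_sq_norm m2.aestronglyMeasurable,
    integrable_prod_iff (Measurable.aestronglyMeasurable (by fun_prop)),
    integrable_prod_iff (Measurable.aestronglyMeasurable (by fun_prop))]
  refine and_congr ⟨fun _ => Eventually.of_forall fun a => sq_int (n.int a)
    (inv_bd (n.cont a) (n.int a) (n.int' a)), fun _ => Eventually.of_forall fun a =>
      sq_int (n.int' a) (f2_bd fun x => h (a, x))⟩ ?_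
  simp only [norm_pow, norm_norm, F2, fun a => f2_sq (n.cont a) (n.int a) (n.int' a)]
  exact integrable_const_mul_iff (IsUnit.mk0 _ (by positivity)) _

lemma int_mul {Z : Type*} [MeasurableSpace Z] {m : Measure Z} {f g : Z → ℂ} (hf : MemLp f 2 m)
    (hg : MemLp g 2 m) : Integrable (fun z => conj (f z) * g z) m :=
  MemLp.integrable_mul (conjCLE.toContinuousLinearMap.comp_memLp' hf) hg

lemma Nice.pl (n : Nice h) (n' : Nice h') (m : MemLp h 2 (ν.prod volume))
    (m' : MemLp h' 2 (ν.prod volume)) : ∫ z, conj (F2 h' z) * F2 h z ∂ν.prod volume =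
      ((2 * Real.pi) ^ 2 : ℝ) * ∫ z, conj (h' z) * h z ∂ν.prod volume := by
  rw [integral_prod _ (int_mul (n'.memLp.2 m') (n.memLp.2 m)), integral_prod _ (int_mul m' m),
    ← integral_const_mul]
  exact integral_congr_ae (Eventually.of_forall fun a =>
    f2_pl (n.cont a) (n.int a) (n.int' a) (n'.int a))

lemma f2_smul (c : ℂ) (h : R2 → ℂ) (q : R2) : f2 (fun x => c * h x) q = c * f2 h q := by
  simp only [f2, mul_assoc, integral_const_mul]

lemma F2_mod (h : A × R2 → ℂ) (c : A → ℂ) (w : A → R2) (z : A × R2) :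
    F2 (fun z => c z.1 * (cexp (I * (d2 z.2 (w z.1) : ℝ)) * h z)) z =
      c z.1 * F2 h (z.1, z.2 - w z.1) := by
  simp only [F2, f2_smul, f2_mod]

lemma Nice.mod (n : Nice h) {c : A → ℂ} {w : A → R2} (hc : Measurable c) (hw : Measurable w) :
    Nice fun z => c z.1 * (cexp (I * (d2 z.2 (w z.1) : ℝ)) * h z) where
  meas := by
    have := n.meas
    fun_prop
  cont a := (Continuous.mul (f := fun x => cexp (I * (d2 x (w a) : ℝ))) (by fun_prop)
    (n.cont a)).const_mul (c a)
  int a := by
    refine ((n.int a).norm.mono' (Continuous.aestronglyMeasurable ?_)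
      (Eventually.of_forall fun x => ?_)).const_mul (c a)
    · exact Continuous.mul (f := fun x => cexp (I * (d2 x (w a) : ℝ))) (by fun_prop) (n.cont a)
    · rw [norm_mul, norm_ph, one_mul]
  int' a := by
    have e := fun q => F2_mod h c w (a, q)
    exact (((n.int' a).comp_sub_right (w a)).const_mul (c a)).congr
      (Eventually.of_forall fun q => (e q).symm)

/-- **matrix elements from the characters** -/
theorem mel {X Y H H' : Type*} [MeasurableSpace X] [AddCommGroup Y] [Module ℝ Y]
    [TopologicalSpace Y] {pr : X → Y → ℝ} [NormedAddCommGroup H] [InnerProductSpace ℂ H]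
    [CompleteSpace H] [NormedAddCommGroup H'] [InnerProductSpace ℂ H'] [CompleteSpace H']
    (hp : IsPair pr) (C : Calc X H) (C' : Calc X H') (W : H →L[ℂ] ℂ) (W' : H' →L[ℂ] ℂ) {v : H}
    {w : H'} (h : ∀ y, W (C.Phi (ch pr y) v) = W' (C'.Phi (ch pr y) w)) {f : X → ℂ} (hf : Bd f) :
    W (C.Phi f v) = W' (C'.Phi f w) := by
  have h1 : ∀ c, W (C.Phi (tp pr c) v) = W' (C'.Phi (tp pr c) w) := by
    intro c
    induction c using Finsupp.induction_linear with
    | zero => rw [tp_zero, C.zero, C'.zero, zero_apply, zero_apply, map_zero, map_zero]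
    | add c d hc hd =>
      rw [tp_add, C.add (hp.tp_bd c) (hp.tp_bd d), C'.add (hp.tp_bd c) (hp.tp_bd d),
        add_apply, add_apply, map_add, map_add, hc, hd]
    | single y a =>
      rw [tp_single, C.smul a (hp.bd y), C'.smul a (hp.bd y), smul_apply, smul_apply, map_smul,
        map_smul, h]
  have hm := hf.memLp (C.nu v + C'.nu w) 2
  obtain ⟨c, hc⟩ := hp.appr hm
  have h2 := C.tendsto_of_sq (fun n => hp.tp_bd (c n)) hf
    (hp.appr_mono hm hc (Measure.le_add_right le_rfl))
  have h3 := C'.tendsto_of_sq (fun n => hp.tp_bd (c n)) hf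
    (hp.appr_mono hm hc (Measure.le_add_left le_rfl))
  exact tendsto_nhds_unique (((W.continuous.tendsto _).comp h2).congr fun n => h1 (c n))
    ((W'.continuous.tendsto _).comp h3)

end Vale.Agent.P352X.El

end
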