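import Vale.Agent.P352X.R.ELL.Pl
import Vale.Agent.P352X.Api3b
import Vale.Agent.P352X.Api4

/-!
# P352X, row ELL: the Fourier transform of Schwartz functions
-/

set_option linter.all false

noncomputable section

open MeasureTheory Filter Topology Complex Set
open scoped SchwartzMap ComplexConjugate ENNReal NNReal FourierTransform LineDeriv

namespace Vale.Agent.P352X.El

open Vale.Agent.P352.GF Vale.Agent.P352.BW Vale.Agent.P352.H496 Vale.Agent.P352.H755
open Vale.Agent.P352.H246 (linv isLor_linv box)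

/-- the Fourier transform for a nondegenerate pairing -/
theorem exists_ft {E : Type*} [NormedAddCommGroup E] [NormedSpace ℝ E] [FiniteDimensional ℝ E]
    [MeasurableSpace E] [BorelSpace E] (μ : Measure E) [μ.IsAddHaarMeasure]
    (B : E →ₗ[ℝ] E →L[ℝ] ℝ) (hB : ∀ p, B p = 0 → p = 0) : ∃ F : 𝓢(E, ℂ) →L[ℂ] 𝓢(E, ℂ),
      Function.Surjective F ∧ ∀ f p, F f p = ∫ z, f z * cexp (I * B p z) ∂μ := by
  set W := EuclideanSpace ℝ (Fin (Module.finrank ℝ E))
  set e : E ≃L[ℝ] W := toEuclidean
  let T0 : E →ₗ[ℝ] W :=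
    { toFun := fun p => (InnerProductSpace.toDual ℝ W).symm
        ((-(2 * Real.pi)⁻¹) • B p ∘L e.symm.toContinuousLinearMap)
      map_add' := fun p q => by
        rw [map_add, ContinuousLinearMap.add_comp, smul_add, map_add]
      map_smul' := fun a p => by
        rw [B.map_smul, ContinuousLinearMap.smul_comp, smul_comm, map_smulₛₗ]
        rfl }
  have hp : (2 * Real.pi) ≠ 0 := by positivity
  have h0 : ∀ p z, -2 * Real.pi * inner ℝ (e z) (T0 p) = B p z := fun p z => by
    rw [real_inner_comm]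
    simp only [T0, LinearMap.coe_mk, AddHom.coe_mk, InnerProductSpace.toDual_symm_apply,
      ContinuousLinearMap.smul_apply, ContinuousLinearMap.comp_apply, smul_eq_mul,
      ContinuousLinearEquiv.coe_coe, ContinuousLinearEquiv.symm_apply_apply]
    field_simp
  have h1 : Function.Injective T0 := (injective_iff_map_eq_zero _).2 fun p h => hB p (by
    ext z
    rw [← h0, h, inner_zero_right, mul_zero, ContinuousLinearMap.zero_apply])
  let T : E ≃L[ℝ] W := (T0.linearEquivOfInjective h1 e.toLinearEquiv.finrank_eq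
    ).toContinuousLinearEquiv
  obtain ⟨c, hc, h2⟩ : ∃ c : ℝ≥0, 0 < c ∧ μ.map e = c • (volume : Measure W) :=
    ⟨_, Measure.addHaarScalarFactor_pos_of_isAddHaarMeasure _ _,
      Measure.isAddLeftInvariant_eq_smul _ _⟩
  have hc' : ((c : ℝ) : ℂ) ≠ 0 := by exact_mod_cast hc.ne'
  refine ⟨((c : ℝ) : ℂ) • (SchwartzMap.compCLMOfContinuousLinearEquiv ℂ T ∘L
    SchwartzMap.fourierTransformCLM ℂ ∘L SchwartzMap.compCLMOfContinuousLinearEquiv ℂ e.symm),
    fun G => ⟨SchwartzMap.compCLMOfContinuousLinearEquiv ℂ e (𝓕⁻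
      (SchwartzMap.compCLMOfContinuousLinearEquiv ℂ T.symm (((c : ℝ) : ℂ)⁻¹ • G))), ?_⟩,
    fun f p => ?_⟩
  · have : ∀ u : 𝓢(W, ℂ), SchwartzMap.compCLMOfContinuousLinearEquiv ℂ e.symm
        (SchwartzMap.compCLMOfContinuousLinearEquiv ℂ e u) = u := fun u => by
      ext x
      simp
    ext p
    simp only [ContinuousLinearMap.smul_apply, ContinuousLinearMap.comp_apply, this,
      SchwartzMap.fourierTransformCLM_apply, FourierTransform.fourier_fourierInv_eq]
    simp [hc']
  · have h3 := integral_map_equiv (μ := μ) e.toHomeomorph.toMeasurableEquiv fun w =>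
      cexp ((-2 * Real.pi * inner ℝ w (T0 p) : ℝ) * I) • f (e.symm w)
    rw [show μ.map e.toHomeomorph.toMeasurableEquiv = _ from h2, integral_smul_nnreal_measure] at h3
    simp only [Homeomorph.toMeasurableEquiv_coe, ContinuousLinearEquiv.coe_toHomeomorph, h0,
      ContinuousLinearEquiv.symm_apply_apply] at h3
    simp only [mul_comm (f _), mul_comm I, ← smul_eq_mul (cexp _), ← h3]
    simp only [ContinuousLinearMap.smul_apply, ContinuousLinearMap.comp_apply,
      SchwartzMap.fourierTransformCLM_apply, SchwartzMap.smul_apply,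
      SchwartzMap.compCLMOfContinuousLinearEquiv_apply, Function.comp_apply,
      SchwartzMap.fourier_coe, Real.fourier_eq']
    rfl

theorem exists_ftS : ∃ F : Sch →L[ℂ] Sch, Function.Surjective F ∧ ∀ f p, F f p = ft (ev f) p :=
  exists_ft volume mdL.toLinearMap fun p h => by
    have := fun z => congrArg (fun l : V →L[ℝ] ℝ => l z) h
    simp only [ContinuousLinearMap.coe_coe, mdL_apply, ContinuousLinearMap.zero_apply] at this
    refine null_ext (by rw [← md_vb', this, al_zero]) (by rw [← md_va', this, be_zero])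
      (funext fun i => ?_)
    have := this (ex i)
    rw [md_ex', neg_eq_zero] at this
    rw [this, tx_zero, Pi.zero_apply]

/-- the pairing of `ft3` -/
def b3 : P3 →ₗ[ℝ] P3 →L[ℝ] ℝ where
  toFun k := LinearMap.toContinuousLinearMap
    { toFun := fun y => y.1 * k.1 - d2 y.2 k.2
      map_add' := fun x y => by simp only [Prod.fst_add, Prod.snd_add, d2_add_l]; ring
      map_smul' := fun a x => by
        simp only [Prod.smul_fst, Prod.smul_snd, d2_smul_l, smul_eq_mul, RingHom.id_apply]; ring }
  map_add' k l := ContinuousLinearMap.ext fun y => by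
    change y.1 * (k.1 + l.1) - d2 y.2 (k.2 + l.2) = y.1 * k.1 - d2 y.2 k.2 + (y.1 * l.1 - d2 y.2 l.2)
    rw [d2_add]; ring
  map_smul' a k := ContinuousLinearMap.ext fun y => by
    change y.1 * (a * k.1) - d2 y.2 (a • k.2) = a * (y.1 * k.1 - d2 y.2 k.2)
    rw [d2_smul]; ring

theorem ft3_int (g : 𝓢(P3, ℂ)) (p : ℝ) : Integrable fun q => ft3 g (p, q) := by
  haveI := haar3
  obtain ⟨F, -, h⟩ := exists_ft (volume : Measure P3) b3 fun k h => by
    have : ∀ y : P3, y.1 * k.1 - d2 y.2 k.2 = 0 := fun y =>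
      congrArg (fun l : P3 →L[ℝ] ℝ => l y) h
    refine Prod.ext (by simpa using this (1, 0)) ((d2_eq_zero _).1 ?_)
    simpa using this (0, k.2)
  exact (Api4.sl p (F g)).integrable.congr (Eventually.of_forall fun q => h g (p, q))

lemma pd_ev (m : Ix) (g : Sch) : pd m (ev g) = ev (∂_{bas m 1} g) := by
  funext x
  rw [pd, ev, ev, SchwartzMap.lineDerivOp_apply, lineDeriv]
  congr 2
  funext t
  congr 1
  funext n
  simp only [bas, Pi.add_apply, Pi.smul_apply, smul_eq_mul]
  split_ifs <;> simp

lemma ft_int (g : Sch) (p : V) : Integrable fun z => ev g z * cexp (I * mdot p z) := by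
  refine g.integrable.norm.mono' (Continuous.aestronglyMeasurable ?_)
    (Eventually.of_forall fun y => ?_)
  · exact g.continuous.mul (by fun_prop)
  · rw [norm_mul, norm_ph, mul_one, ev]

lemma ft_der (g : Sch) (v p : V) : ft (ev (∂_{v} g)) p = -(I * mdot p v) * ft (ev g) p := by
  have h := integral_bilinear_hasLineDerivAt_right_eq_neg_left_of_integrable (μ := volume)
    (f := ev g) (f' := ev (∂_{v} g)) (g := fun z => cexp (I * mdot p z))
    (g' := fun z => I * mdot p v * cexp (I * mdot p z)) (v := v) (B := ContinuousLinearMap.mul ℝ ℂ)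
    (ft_int _ p) (((ft_int g p).const_mul (I * mdot p v)).congr (Eventually.of_forall fun z => by
      simp only [ContinuousLinearMap.mul_apply']; ring)) (ft_int g p)
    (fun x _ => g.differentiableAt.hasFDerivAt.hasLineDerivAt v) (fun x _ => ?_)
  · simp only [ContinuousLinearMap.mul_apply', mul_left_comm (ev g _), integral_const_mul] at h
    rw [ft, ft, neg_mul, h, neg_neg]
  · simp only [HasLineDerivAt, md_add, md_smul]
    have := (((hasDerivAt_id' (0 : ℝ)).mul_const (mdot p v)).const_add (mdot p x)).ofReal_comp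
      |>.const_mul I |>.cexp
    simpa [mul_comm] using this

lemma box_ev (g : Sch) : box (ev g) = ev (∑ m, (P352.GF.eta m : ℂ) • ∂_{bas m 1} (∂_{bas m 1} g)) := by
  funext x
  simp only [box, pd_ev]
  simp [ev]

lemma ft_box (g : Sch) (p : V) : ft (box (ev g)) p = -(mu p : ℝ) * ft (ev g) p := by
  obtain ⟨F, -, h⟩ := exists_ftS
  rw [box_ev, ← h, map_sum]
  simp only [map_smul, SchwartzMap.sum_apply, SchwartzMap.smul_apply, h, ft_der, smul_eq_mul]
  simp [mu, mdot_eq, Fin.sum_univ_four, bas, P352.GF.eta, o]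
  ring_nf
  simp

lemma ft_sim {s : ℝ} {L : Ix → V} (hs : 0 < s) (hL : IsLor L) (a : V) (f : Fn) (q : V) :
    cexp (I * mdot q a) * ft (fun x => f (sim s L a x)) (sim s (linv L) 0 q) =
      ((s ^ 4)⁻¹ : ℝ) * ft f q := by
  rw [ft, ft, ← real_smul, ← (sc_sim hs hL a).integral, ← integral_const_mul]
  refine integral_congr_ae (Eventually.of_forall fun z => ?_)
  simp only
  rw [mul_left_comm, ← Complex.exp_add, sim_zero (s := s) (L := L) a z, md_add, sim_smul (s := s),
    sim_smul (s := s), md_smul, md_smul_l, md_lor' _ _ hL]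
  congr 2
  push_cast
  ring

end Vale.Agent.P352X.El

end
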