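import Vale.Agent.P352X.Api3a

/-!
# P352X, row ELL: the Fourier transform in the transverse plane
-/

set_option linter.all false

noncomputable section

open MeasureTheory Filter Topology Complex Set
open scoped SchwartzMap ComplexConjugate ENNReal FourierTransform

namespace Vale.Agent.P352X.El

/-- Fourier transform in the transverse plane -/
def f2 (h : R2 → ℂ) (q : R2) : ℂ := ∫ x, h x * cexp (I * (-d2 x q : ℝ))

lemma norm_ph (r : ℝ) : ‖cexp (I * r)‖ = 1 := by rw [mul_comm, norm_exp_ofReal_mul_I]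

lemma inner_e2 (x y : EuclideanSpace ℝ (Fin 2)) : inner ℝ x y = d2 x.ofLp y.ofLp := by
  simp [PiLp.inner_apply, d2, mul_comm]

lemma f2_eq (h : R2 → ℂ) (ξ : EuclideanSpace ℝ (Fin 2)) :
    𝓕 (fun x : EuclideanSpace ℝ (Fin 2) => h x.ofLp) ξ = f2 h ((2 * Real.pi) • ξ.ofLp) := by
  rw [Real.fourier_eq', f2, ← (PiLp.volume_preserving_ofLp (Fin 2)).integral_comp
    (MeasurableEquiv.toLp 2 _).symm.measurableEmbedding]
  refine integral_congr_ae (Eventually.of_forall fun x => ?_)
  simp only [smul_eq_mul, inner_e2, d2_smul]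
  rw [mul_comm]
  congr 2
  push_cast
  ring

/-- inversion -/
lemma f2_inv {h : R2 → ℂ} (hc : Continuous h) (h1 : Integrable h) (h2 : Integrable (f2 h))
    (x : R2) : ∫ q, cexp (I * (d2 x q : ℝ)) * f2 h q = ((2 * Real.pi) ^ 2 : ℝ) * h x := by
  have hp : (2 * Real.pi) ≠ 0 := by positivity
  have mp := PiLp.volume_preserving_ofLp (Fin 2)
  have me := (MeasurableEquiv.toLp 2 (Fin 2 → ℝ)).symm.measurableEmbedding
  have a1 : Integrable fun x : EuclideanSpace ℝ (Fin 2) => h x.ofLp :=
    (mp.integrable_comp_emb me).2 h1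
  have a2 : Integrable (𝓕 fun x : EuclideanSpace ℝ (Fin 2) => h x.ofLp) := by
    rw [funext (f2_eq h)]
    exact (mp.integrable_comp_emb me (g := fun q => f2 h ((2 * Real.pi) • q))).2
      (h2.comp_smul hp)
  have a3 := congrFun (Continuous.fourierInv_fourier_eq
    (hc.comp (PiLp.continuous_ofLp 2 _)) a1 a2) (WithLp.toLp 2 x)
  rw [Real.fourierInv_eq'] at a3
  simp only [Function.comp_def, f2_eq, inner_e2, smul_eq_mul] at a3
  have a4 := mp.integral_comp me fun q : R2 => cexp (I * (d2 x ((2 * Real.pi) • q) : ℝ)) *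
    f2 h ((2 * Real.pi) • q)
  have a5 := Measure.integral_comp_smul volume
    (fun q : R2 => cexp (I * (d2 x q : ℝ)) * f2 h q) (2 * Real.pi)
  rw [← a4] at a5
  rw [← a3]
  have a6 : ∀ q : EuclideanSpace ℝ (Fin 2), cexp (I * (d2 x ((2 * Real.pi) • q.ofLp) : ℝ)) =
      cexp ((2 * Real.pi * d2 q.ofLp x : ℝ) * I) := fun q => by
    rw [d2_smul, d2_comm, mul_comm]
  simp only [a6] at a5
  rw [a5, Module.finrank_fin_fun, abs_of_pos (by positivity), real_smul, ← mul_assoc,
    ← ofReal_mul, mul_inv_cancel₀ (by positivity), ofReal_one, one_mul]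

/-- Plancherel -/
lemma f2_pl {h h' : R2 → ℂ} (hc : Continuous h) (h1 : Integrable h) (h2 : Integrable (f2 h))
    (h3 : Integrable h') :
    ∫ q, conj (f2 h' q) * f2 h q = ((2 * Real.pi) ^ 2 : ℝ) * ∫ x, conj (h' x) * h x := by
  have a1 : ∀ q, conj (f2 h' q) * f2 h q =
      ∫ x, conj (h' x) * (cexp (I * (d2 x q : ℝ)) * f2 h q) := fun q => by
    rw [f2, ← integral_conj, ← integral_mul_const]
    refine integral_congr_ae (Eventually.of_forall fun x => ?_)
    simp only [map_mul, ← exp_conj, conj_I, conj_ofReal, ofReal_neg, map_neg, neg_mul_neg,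
      mul_assoc]
  simp only [a1]
  rw [integral_integral_swap, ← integral_const_mul]
  · refine integral_congr_ae (Eventually.of_forall fun x => ?_)
    simp only
    rw [integral_const_mul, f2_inv hc h1 h2]
    ring
  · have a2 := h2.mul_prod (g := fun x => conj (h' x)) (conjCLE.integrable_comp_iff.2 h3)
    refine a2.norm.mono' ?_ (Eventually.of_forall fun z => ?_)
    · have a3 : Continuous fun z : R2 × R2 => cexp (I * (d2 z.2 z.1 : ℝ)) := by fun_prop
      refine (a2.1.mul a3.aestronglyMeasurable).congr (Eventually.of_forall fun z => ?_)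
      simp only [Function.uncurry, Pi.mul_apply]
      ring
    · simp only [Function.uncurry, norm_mul, norm_ph, one_mul]
      rw [mul_comm]

lemma f2_mod (h : R2 → ℂ) (w q : R2) :
    f2 (fun x => cexp (I * (d2 x w : ℝ)) * h x) q = f2 h (q - w) := by
  refine integral_congr_ae (Eventually.of_forall fun x => ?_)
  simp only
  rw [mul_right_comm, ← Complex.exp_add, mul_comm, d2_sub]
  congr 2
  push_cast
  ring

lemma f2_bd (h : R2 → ℂ) (q : R2) : ‖f2 h q‖ ≤ ∫ x, ‖h x‖ := by
  refine (norm_integral_le_integral_norm _).trans_eq ?_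
  simp only [norm_mul, norm_ph, mul_one]

/-- the transform in the variable `al` -/
def f1 (g : P3 → ℂ) (y : P3) : ℂ := ∫ α : ℝ, g (α, y.2) * cexp (I * (α * y.1 : ℝ))

lemma haar3 : (volume : Measure P3).IsAddHaarMeasure := Measure.prod.instIsAddHaarMeasure _ _

variable (g : 𝓢(P3, ℂ))

lemma g_bd : ∃ C, ∀ α x, ‖g (α, x)‖ ≤ C * (1 + ‖α‖ ^ 2)⁻¹ := by
  obtain ⟨C0, -, h0⟩ := g.decay 0 0
  obtain ⟨C2, -, h2⟩ := g.decay 2 0
  refine ⟨C0 + C2, fun α x => ?_⟩
  have a0 := h0 (α, x)
  have a2 := h2 (α, x)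
  rw [norm_iteratedFDeriv_zero] at a0 a2
  rw [← div_eq_mul_inv, le_div_iff₀ (by positivity)]
  have a3 : ‖α‖ ^ 2 ≤ ‖(α, x)‖ ^ 2 := pow_le_pow_left₀ (norm_nonneg _) (norm_fst_le (α, x)) 2
  nlinarith [norm_nonneg (g (α, x))]

lemma f1_cont : Continuous (f1 g) := by
  obtain ⟨C, hC⟩ := g_bd g
  have hg := g.continuous
  refine continuous_of_dominated (bound := fun α => C * (1 + ‖α‖ ^ 2)⁻¹)
    (fun y => Continuous.aestronglyMeasurable (by fun_prop))
    (fun y => Eventually.of_forall fun α => ?_) ?_ (Eventually.of_forall fun α => by fun_prop)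
  · rw [norm_mul, norm_ph, mul_one]
    exact hC _ _
  · simpa using integrable_inv_one_add_sq.const_mul C

lemma f1_bd : ∃ C, ∀ y, ‖f1 g y‖ ≤ C := by
  obtain ⟨C, hC⟩ := g_bd g
  refine ⟨∫ α : ℝ, C * (1 + ‖α‖ ^ 2)⁻¹, fun y => norm_integral_le_of_norm_le ?_
    (Eventually.of_forall fun α => ?_)⟩
  · simpa using integrable_inv_one_add_sq.const_mul C
  · rw [norm_mul, norm_ph, mul_one]
    exact hC _ _

lemma g_int {r : P3 → ℝ} (hr : Continuous r) :
    Integrable (fun y => g y * cexp (I * r y)) ((volume : Measure ℝ).prod volume) := by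
  haveI := haar3
  have h : Integrable g (volume : Measure P3) := g.integrable
  refine h.norm.mono' (Continuous.aestronglyMeasurable ?_) (Eventually.of_forall fun y => ?_)
  · have := g.continuous
    fun_prop
  · rw [norm_mul, norm_ph, mul_one]

lemma f1_int (p : ℝ) : Integrable fun x => f1 g (p, x) :=
  (g_int g (r := fun y => y.1 * p) (by fun_prop)).integral_prod_right

lemma f2_f1 (p : ℝ) (q : R2) : f2 (fun x => f1 g (p, x)) q = ft3 g (p, q) := by
  rw [ft3, Measure.volume_eq_prod, integral_prod_symm _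
    (g_int g (r := fun y => y.1 * p - d2 y.2 q) (by fun_prop)), f2]
  refine integral_congr_ae (Eventually.of_forall fun x => ?_)
  simp only [f1]
  rw [← integral_mul_const]
  refine integral_congr_ae (Eventually.of_forall fun α => ?_)
  simp only
  rw [mul_assoc, ← Complex.exp_add]
  congr 2
  push_cast
  ring

lemma f1_shift {g g' : P3 → ℂ} {t : ℝ} (h : ∀ y : P3, g' y = g (y.1 - t * d2 y.2 y.2, y.2))
    (y : P3) : f1 g' y = cexp (I * (t * (y.1 * d2 y.2 y.2) : ℝ)) * f1 g y := by
  rw [f1, f1, ← integral_const_mul, ← integral_add_right_eq_self _ (t * d2 y.2 y.2)]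
  refine integral_congr_ae (Eventually.of_forall fun α => ?_)
  simp only [h, add_sub_cancel_right]
  rw [mul_left_comm, ← Complex.exp_add]
  congr 2
  push_cast
  ring

end Vale.Agent.P352X.El

end
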